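import Vale.Agent.P283R.Mt.Alg
import Vale.Agent.P283R.To.GlAll
import Vale.Agent.P283R.To.GlMse
import Vale.Agent.P283R.Cx.Sch
import Vale.Agent.P283R.Br.Glue
import Vale.Agent.P283R.Sl.Ga
import Vale.Agent.P283R.Sl.Cl
import Vale.Agent.P283R.Sl.Br

/-!
# P283R, block MT: toric contractions have rings of sections with few generators
-/

open Set CategoryTheory AlgebraicGeometry

noncomputable section

namespace Vale.Agent.P283R.Mt

section

open Vale.Agent.P289 (Pt)
open Vale.Agent.P287D Vale.Agent.P283M.Stm Vale.Agent.P283M.Stm.Var Vale.Agent.P297Z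
open Vale.Agent.P283M Vale.Agent.P283M.Br Vale.Agent.P283R.To Vale.Agent.P283R.Gl
open Vale.Agent.P283R.Sch

variable {X : Var} {d : ℕ} {W : X.X.Opens} {y : Fin d → X.K} {x : Pt X.X}

/-- the invariant prime divisors -/
theorem rays (W : X.X.Opens) (y : Fin d → X.K) : ∃ (k : ℕ) (r : Fin k → X.PrimeDiv),
    Function.Injective r ∧ ∀ E, (∃ i, r i = E) ↔ E.1 ∈ W ∧ ¬ ∀ j, (pq E).ord (y j) = 0 := by
  have f : {E : X.PrimeDiv | E.1 ∈ W ∧ ¬ ∀ j, (pq E).ord (y j) = 0}.Finite :=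
    (finite_iUnion fun j => fin X (y j)).subset fun E h =>
      let ⟨j, c⟩ := not_forall.1 h.2; mem_iUnion.2 ⟨j, (pq_ord E _).trans_ne c⟩
  obtain ⟨k, r, a, b⟩ := f.fin_param
  exact ⟨k, r, a, fun E => Set.ext_iff.1 b E⟩

theorem sum_single {k : ℕ} {r : Fin k → X.PrimeDiv} (hr : Function.Injective r) (m : Fin k → ℤ)
    (i : Fin k) : ∑ j, m j * Finsupp.single (r j) (1 : ℤ) (r i) = m i := by
  rw [Finset.sum_eq_single i (fun j _ e => by
    rw [Finsupp.single_eq_of_ne (hr.ne e).symm, mul_zero]) fun a => (a (Finset.mem_univ _)).elim,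
    Finsupp.single_eq_same, mul_one]

theorem sum_zero {k : ℕ} {r : Fin k → X.PrimeDiv} (m : Fin k → ℤ) {E : X.PrimeDiv}
    (h : ¬ ∃ i, r i = E) : ∑ j, m j * Finsupp.single (r j) (1 : ℤ) E = 0 :=
  Finset.sum_eq_zero fun j _ => by
    rw [Finsupp.single_eq_of_ne fun e => h ⟨j, e.symm⟩, mul_zero]

variable {k : ℕ} {r : Fin k → X.PrimeDiv} (h : TorY W y) (hx : x ∈ W) (hr : Function.Injective r)
  (er : ∀ E, (∃ i, r i = E) ↔ E.1 ∈ W ∧ ¬ ∀ j, (pq E).ord (y j) = 0)

include h hx hr er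

/-- the sections of an invariant divisor -/
theorem sec (m : Fin k → ℤ) (φ : X.K) : (φ ≠ 0 → ∀ E : X.PrimeDiv, E.1 ∈ W →
      0 ≤ ord φ E + ∑ j, m j * Finsupp.single (r j) (1 : ℤ) E) ↔
    φ ∈ Submodule.span ℂ (mon y '' {u | ∀ i, 0 ≤ ∑ j, u j * (pq (r i)).ord (y j) + m i}) := by
  have y0 := h.1.ne_zero
  refine ⟨fun H => ?_, fun H => ?_⟩
  · rcases eq_or_ne φ 0 with rfl | φ0
    · exact zero_mem _
    obtain ⟨g, rfl⟩ := h.lau hx φ0 fun E a b => by
      have := H φ0 E a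
      rwa [sum_zero m fun c => ((er E).1 c).2 b, add_zero, pq_ord] at this
    refine sum_mem fun u hu => Submodule.smul_mem _ _ (Submodule.subset_span ⟨u, fun i => ?_, rfl⟩)
    obtain ⟨a, b⟩ := (er _).1 ⟨i, rfl⟩
    have := H φ0 _ a
    rw [sum_single hr, pq_ord] at this
    have k := h.ray a b hu
    rw [ord_mon _ y0] at k
    omega
  · induction H using Submodule.span_induction with
    | mem φ hφ =>
      obtain ⟨u, hu, rfl⟩ := hφ
      intro _ E a
      rw [pq_ord, ord_mon _ y0]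
      by_cases c : ∃ i, r i = E
      · obtain ⟨i, rfl⟩ := c
        rw [sum_single hr]
        exact hu i
      · have b := not_not.1 fun b => c ((er E).2 ⟨a, b⟩)
        simp only [sum_zero m c, b, mul_zero, Finset.sum_const_zero, add_zero, le_refl]
    | zero => exact fun a => (a rfl).elim
    | add a b _ _ ha hb =>
      intro c E e
      rcases eq_or_ne a 0 with rfl | a0
      · rw [zero_add] at c ⊢
        exact hb c E e
      rcases eq_or_ne b 0 with rfl | b0
      · rw [add_zero]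
        exact ha a0 E e
      have k1 := ha a0 E e
      have k2 := hb b0 E e
      have k3 : min ((pq E).ord a) ((pq E).ord b) ≤ (pq E).ord (a + b) :=
        P297Z.Pl.min_ord_le_add (pq E).toPlace a0 b0 c
      rw [pq_ord] at k1 k2 ⊢
      omega
    | smul c a _ ha =>
      intro e E f
      have c0 : c ≠ 0 := by rintro rfl; exact e (zero_smul _ _)
      have a0 : a ≠ 0 := by rintro rfl; exact e (smul_zero _)
      have k1 := ha a0 E f
      rw [pq_ord] at k1 ⊢
      rwa [Pl.ord_smul _ c0]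

/-- every divisor is linearly equivalent to an invariant divisor -/
theorem span (G : X.PrimeDiv → ℤ) (f : {E | G E ≠ 0}.Finite) : ∃ (m : Fin k → ℤ) (φ : X.K), φ ≠ 0 ∧
    ∀ E : X.PrimeDiv, E.1 ∈ W → G E = ord φ E + ∑ j, m j * Finsupp.single (r j) (1 : ℤ) E := by
  classical
  let T := (f.toFinset.filter fun E => E.1 ∈ W ∧ ∀ j, (pq E).ord (y j) = 0).image pq
  obtain ⟨φ, φ0, hφ⟩ := Gl.eqn (h.rat hx) (Cox.up (Finsupp.ofSupportFinite G f)) T fun P hP => by
    obtain ⟨E, a, rfl⟩ := Finset.mem_image.1 hP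
    exact h.tpr (Finset.mem_filter.1 a).2.1 (Finset.mem_filter.1 a).2.2
  refine ⟨fun i => G (r i) - ord φ (r i), φ, φ0, fun E a => ?_⟩
  by_cases c : ∃ i, r i = E
  · obtain ⟨i, rfl⟩ := c
    rw [sum_single hr, add_sub_cancel]
  have b := not_not.1 fun b => c ((er E).2 ⟨a, b⟩)
  rw [sum_zero _ c, add_zero, pq_ord]
  by_cases e : pq E ∈ T
  · rw [(hφ _ (h.tpr a b)).1 e, Cox.up_eq _ (pq_is E).dom]
    rfl
  · rw [(hφ _ (h.tpr a b)).2 e]
    exact by_contra fun z =>
      e (Finset.mem_image_of_mem _ (Finset.mem_filter.2 ⟨f.mem_toFinset.2 z, a, b⟩))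

end

open Sl Sl.Var

variable {X Z : Var} {d : ℕ} {f : X.X ⟶ Z.X} {ω : X.Form d} {z : Pt Z.X}

/-- **toric contractions are in the class** -/
theorem tor (hd : 1 ≤ d) (a : dimension X.str = d) (b : ω.Nonzero) (s : Contraction f)
    (B : X.QDiv) {W : Z.X.Opens} (zW : z.In W) (t : Toric (pre f W) d) :
    Generated (d + 1) f ω B z := by
  obtain ⟨V, hV, zV, t⟩ := Gl.sum X.o Z.o f d W z s zW t
  obtain ⟨y, h⟩ := Gl.toric_iff.1 t
  obtain ⟨x, hx⟩ := s.2.2.1.surj z
  replace hx : x ∈ f ⁻¹ᵁ V := show f x ∈ V from hx ▸ zV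
  obtain ⟨k, r, hr, er⟩ := rays (X := X.o) (f ⁻¹ᵁ V) y
  obtain ⟨n, rfl⟩ : ∃ n, d = n + 1 := ⟨d - 1, by omega⟩
  have hK := P283M.Br.ffd X.o _ a
  obtain ⟨j, -, fr⟩ := P283M.Br.frm X.o _ hK ω b
  have f0 := P283R.Br.form_fin hK fr
  have sp : ∀ (B : X.QDiv) (q : ℕ), (∀ E, ∃ m : ℤ, q * B.coeff E = m) →
      InSpan (pre f V) (fun i => Finsupp.single (r i) 1) fun E => q * logCan ω B E := fun B q hq => by
    choose c hc using hq
    obtain ⟨m, φ, φ0, e⟩ := span h hx hr er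
      (fun E => q * formOrd ω (RingEquiv.refl X.K) E + c E)
      ((f0.union B.support.finite_toSet).subset fun E e => by
        by_contra w
        have w1 : formOrd ω (RingEquiv.refl X.K) E = 0 := not_not.1 fun a => w (.inl a)
        have w2 := hc E
        rw [show B.coeff E = 0 from Finsupp.notMem_support_iff.1 fun a => w (.inr a),
          mul_zero] at w2
        exact e (by simp only [w1, mul_zero, zero_add]; exact_mod_cast w2.symm))
    refine ⟨m, φ, φ0, fun E w => ?_⟩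
    simp only [logCan, mul_add, hc]
    exact_mod_cast e E w
  refine ⟨k, _, V, fun i => Finsupp.single (r i) 1, le_rfl, hV, zV,
    gg_tor h.1.ne_zero _ fun m φ => sec h hx hr er m φ, sp B, .inr ?_⟩
  simpa using sp 0 1 fun E => ⟨0, by simp [QDiv.coeff]⟩

end Vale.Agent.P283R.Mt
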