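import Vale.Agent.P283R.Sl.Gn
import Vale.Agent.P283R.To.Gs

/-!
# P283R, block MT: graded rings which are spanned by monomials
-/

open Set

noncomputable section

namespace Vale.Agent.P283R.Mt

open Vale.Agent.P283R.To

variable {K : Type} [Field K] [Algebra ℂ K] {d k : ℕ} {y : Fin d → K}

open MvPolynomial in
/-- the generators of the monoid generate the ring -/
theorem gg_mon (y0 : ∀ j, y j ≠ 0) {ι : Type} [Fintype ι] (c : ι → (Fin k → ℤ) × (Fin d → ℤ))
    {A : (Fin k → ℤ) → Set K} (hA : ∀ m φ, φ ∈ A m ↔
      φ ∈ Submodule.span ℂ (mon y '' {u | (m, u) ∈ AddSubmonoid.closure (range c)})) :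
    Sl.GradedGen (Fintype.card ι) A := by
  classical
  let e := (Fintype.equivFin ι).symm
  let χ : (Fin k → ℤ) × (Fin d → ℤ) → Sl.Laurent K k := fun p => .single p.1 (mon y p.2)
  have χ0 : χ 0 = 1 := by simp [χ, mon, AddMonoidAlgebra.one_def]
  have χa : ∀ p q, χ (p + q) = χ p * χ q := fun p q => by
    simp only [χ, AddMonoidAlgebra.single_mul_single, Prod.fst_add, Prod.snd_add, mon_add y0]
  let π : Sl.Poly (Fintype.card ι) →ₐ[ℂ] Sl.Laurent K k := aeval fun j => χ (c (e j))
  have h : ∀ j, π (X j) = χ (c (e j)) := aeval_X _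
  refine ⟨fun j => mon y (c (e j)).2, fun j => (c (e j)).1, π, h, fun F => ⟨?_, fun hF => ?_⟩⟩
  · rintro ⟨p, rfl⟩ m
    rw [hA]
    induction p using induction_on' with
    | monomial n r =>
      have a : ∀ s : Finset (Fin (Fintype.card ι)), ∏ j ∈ s, χ (c (e j)) ^ n j =
          χ (∑ j ∈ s, n j • c (e j)) := fun s => by
        have b : ∀ p (n : ℕ), χ p ^ n = χ (n • p) := fun p n => by
          induction n with
          | zero => rw [pow_zero, zero_smul, χ0]
          | succ n ih => rw [pow_succ, ih, succ_nsmul, χa]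
        induction s using Finset.induction_on with
        | empty => exact χ0.symm
        | insert j s hj ih => rw [Finset.prod_insert hj, Finset.sum_insert hj, χa, ih, b]
      have : π (monomial n r) = r • χ (∑ j, n j • c (e j)) := by
        rw [monomial_eq, Finsupp.prod_fintype _ _ (by simp), C_mul', map_smul, map_prod]
        simp only [map_pow, h, a]
      rw [this, AddMonoidAlgebra.smul_single, AddMonoidAlgebra.coeff_single, Finsupp.single_apply]
      split_ifs with z
      · refine Submodule.smul_mem _ _ (Submodule.subset_span ⟨_, ?_, rfl⟩)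
        subst z
        show ∑ j, n j • c (e j) ∈ AddSubmonoid.closure (range c)
        exact sum_mem fun j _ => nsmul_mem (AddSubmonoid.subset_closure (mem_range_self _)) _
      · exact zero_mem _
    | add p q hp hq => rw [map_add]; exact add_mem hp hq
  · have m1 : ∀ p ∈ AddSubmonoid.closure (range c), χ p ∈ π.range := fun p x => by
      induction x using AddSubmonoid.closure_induction with
      | mem p hp =>
        obtain ⟨j, rfl⟩ := hp
        obtain ⟨j, rfl⟩ := e.surjective j
        exact ⟨_, h j⟩
      | zero => rw [χ0]; exact one_mem _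
      | add p q _ _ hp hq => rw [χa]; exact mul_mem hp hq
    have m2 : ∀ m, ∀ φ ∈ Submodule.span ℂ (mon y '' {u | (m, u) ∈ AddSubmonoid.closure (range c)}),
        .single m φ ∈ π.range := fun m φ x => by
      induction x using Submodule.span_induction with
      | mem x hx =>
        obtain ⟨u, hu, rfl⟩ := hx
        exact m1 _ hu
      | zero => rw [AddMonoidAlgebra.single_zero]; exact zero_mem _
      | add x y _ _ hx hy => rw [AddMonoidAlgebra.single_add]; exact add_mem hx hy
      | smul r x _ hx => rw [← AddMonoidAlgebra.smul_single]; exact Subalgebra.smul_mem _ hx r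
    show F ∈ π.range
    rw [← AddMonoidAlgebra.sum_coeff_single F]
    exact sum_mem fun m _ => m2 m _ ((hA _ _).1 (hF m))

/-- the generators of the cone -/
def cg (ρ : Fin k → Fin d → ℤ) : Fin k ⊕ Option (Fin d) → (Fin k → ℤ) × (Fin d → ℤ)
  | .inl i => (Pi.single i 1, 0)
  | .inr none => (fun i => ∑ j, ρ i j, fun _ => -1)
  | .inr (some j) => (fun i => -ρ i j, Pi.single j 1)

theorem mem_cg (ρ : Fin k → Fin d → ℤ) (p : (Fin k → ℤ) × (Fin d → ℤ)) :
    p ∈ AddSubmonoid.closure (range (cg ρ)) ↔ ∀ i, 0 ≤ ∑ j, p.2 j * ρ i j + p.1 i := by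
  classical
  refine ⟨fun x i => ?_, fun h => ?_⟩
  · induction x using AddSubmonoid.closure_induction with
    | mem p hp =>
      obtain ⟨i' | _ | j, rfl⟩ := hp
      · simp only [cg, Pi.zero_apply, zero_mul, Finset.sum_const_zero, zero_add, Pi.single_apply]
        split_ifs <;> simp
      · simp [cg]
      · simp [cg, Pi.single_apply]
    | zero => simp
    | add p q _ _ hp hq =>
      simp only [Prod.fst_add, Prod.snd_add, Pi.add_apply, add_mul, Finset.sum_add_distrib]
      linarith
  · obtain ⟨N, hN⟩ : ∃ N : ℕ, ∀ j, 0 ≤ p.2 j + N := by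
      refine ⟨∑ j, (p.2 j).natAbs, fun j => ?_⟩
      have := Finset.single_le_sum (f := fun j => (p.2 j).natAbs) (fun _ _ => Nat.zero_le _)
        (Finset.mem_univ j)
      omega
    have e : p = ∑ i, (∑ j, p.2 j * ρ i j + p.1 i).toNat • cg ρ (.inl i) +
        (N • cg ρ (.inr none) + ∑ j, (p.2 j + N).toNat • cg ρ (.inr (some j))) := by
      ext i
      · simp only [cg, Prod.fst_add, Prod.fst_sum, Prod.smul_fst, Pi.add_apply, Finset.sum_apply,
          Pi.smul_apply]
        simp only [nsmul_eq_mul, Int.toNat_of_nonneg (h _), Int.toNat_of_nonneg (hN _),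
          Pi.single_apply, mul_ite, mul_one, mul_zero, Finset.sum_ite_eq, Finset.mem_univ, if_true,
          mul_neg, add_mul, Finset.sum_neg_distrib, Finset.sum_add_distrib, Finset.mul_sum]
        ring
      · simp only [cg, Prod.snd_add, Prod.snd_sum, Prod.smul_snd, Pi.add_apply, Finset.sum_apply,
          Pi.smul_apply]
        simp only [nsmul_eq_mul, Int.toNat_of_nonneg (hN _), Pi.zero_apply,
          Pi.single_apply, mul_ite, mul_one, mul_zero, Finset.sum_ite_eq, Finset.mem_univ, if_true,
          Finset.sum_const_zero]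
        ring
    rw [e]
    exact add_mem (sum_mem fun i _ => nsmul_mem (AddSubmonoid.subset_closure (mem_range_self _)) _)
      (add_mem (nsmul_mem (AddSubmonoid.subset_closure (mem_range_self _)) _)
        (sum_mem fun i _ => nsmul_mem (AddSubmonoid.subset_closure (mem_range_self _)) _))

/-- the ring of the sections of the invariant divisors -/
theorem gg_tor (y0 : ∀ j, y j ≠ 0) (ρ : Fin k → Fin d → ℤ) {A : (Fin k → ℤ) → Set K}
    (hA : ∀ m φ, φ ∈ A m ↔
      φ ∈ Submodule.span ℂ (mon y '' {u | ∀ i, 0 ≤ ∑ j, u j * ρ i j + m i})) :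
    Sl.GradedGen (k + (d + 1)) A := by
  have := gg_mon y0 (cg ρ) (A := A) fun m φ => by simp only [mem_cg]; exact hA m φ
  rwa [Fintype.card_sum, Fintype.card_option, Fintype.card_fin, Fintype.card_fin] at this

end Vale.Agent.P283R.Mt
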